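import Vale.Agent.P126.Tradeoff

/-!
P126: duality of metric entropy with a trade-off between scale and factor.
-/

open scoped InnerProductSpace Pointwise

open Vale.Agent.P126

theorem Vale.Agent.Results.P126.TradeoffEntropyDuality.result :
    ∃ C : ℝ, 1 ≤ C ∧ ∀ n : ℕ, 1 ≤ n → ∀ K L : Set (EuclideanSpace ℝ (Fin n)),
      IsSymmBody K → IsSymmBody L → ∀ k : ℕ, 1 ≤ k →
        (∀ Q : ℝ, 1 ≤ Q →
          Real.log (coveringNum K L) ≤
              C * (k * Real.log (coveringNum (polarBody L) ((C * k * Q)⁻¹ • polarBody K)) +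
                Real.log (coveringNum (polarBody L) ((C * k * Q)⁻¹ • polarBody K)) ^ 2 / Q ^ k) ∧
          Real.log (coveringNum (polarBody L) ((C * k * Q) • polarBody K)) ≤
              C * (k * Real.log (coveringNum K L) + Real.log (coveringNum K L) ^ 2 / Q ^ k)) ∧
        Real.log (coveringNum (polarBody L)
            ((C * k * (1 + Real.log (coveringNum K L)) ^ ((k : ℝ)⁻¹)) • polarBody K)) ≤
          2 * C * k * Real.log (coveringNum K L) := by
  have hC : 1 ≤ dualConst := by norm_num [dualConst]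
  refine ⟨dualConst, hC, fun n _ K L hK hL k hk => ?_⟩
  have hk0 : (0 : ℝ) < k := by exact_mod_cast hk
  have hrev : ∀ Q : ℝ, 1 ≤ Q →
      Real.log (coveringNum (polarBody L) ((dualConst * k * Q) • polarBody K)) ≤
        dualConst * (k * Real.log (coveringNum K L) +
          Real.log (coveringNum K L) ^ 2 / Q ^ k) := by
    intro Q hQ
    have ha : dualConst * k * Q ≠ 0 := by positivity
    have h := log_coveringNum_le_tradeoff (K := polarBody L)
      (L := (dualConst * k * Q) • polarBody K) hL.polar (hK.polar.smul ha) hk hQ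
    rwa [polarBody_smul ha, hK.bipolar, hL.bipolar, coveringNum_smul (inv_ne_zero ha) K L] at h
  refine ⟨fun Q hQ => ⟨log_coveringNum_le_tradeoff hK hL hk hQ, hrev Q hQ⟩, ?_⟩
  set M := Real.log (coveringNum K L : ℝ) with hM
  have hM0 : 0 ≤ M := Real.log_natCast_nonneg _
  have hQ : 1 ≤ (1 + M) ^ ((k : ℝ)⁻¹) := Real.one_le_rpow (by linarith) (by positivity)
  refine (hrev _ hQ).trans ?_
  rw [← Real.rpow_natCast (_ ^ ((k : ℝ)⁻¹)) k, ← Real.rpow_mul (by linarith), inv_mul_cancel₀ hk0.ne',
    Real.rpow_one]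
  have h1 : M ^ 2 / (1 + M) ≤ k * M := by
    rw [div_le_iff₀ (by linarith)]
    have hk1 : (1 : ℝ) ≤ k := by exact_mod_cast hk
    calc M ^ 2 ≤ 1 * M * (1 + M) := by linarith [show M ^ 2 = M * M by ring]
      _ ≤ k * M * (1 + M) := by gcongr
  have := mul_le_mul_of_nonneg_left h1 (show 0 ≤ dualConst by linarith)
  linarith
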