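import Vale.Agent.P126.Lattice.Main

/-!
P126: duality of metric entropy, with absolute constants, for every pair of bodies which are
1-unconditional in a common basis.
-/

open scoped InnerProductSpace Pointwise

open Vale.Agent.P126

theorem Vale.Agent.Results.P126.UnconditionalDuality.result :
    ∃ a b : ℝ, 1 ≤ a ∧ 1 ≤ b ∧ ∀ n : ℕ, 1 ≤ n → ∀ K L : Set (EuclideanSpace ℝ (Fin n)),
      IsSymmBody K → IsSymmBody L →
      (∀ x ∈ K, ∀ y : EuclideanSpace ℝ (Fin n), (∀ i, y i = x i ∨ y i = -x i) → y ∈ K) →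
      (∀ x ∈ L, ∀ y : EuclideanSpace ℝ (Fin n), (∀ i, y i = x i ∨ y i = -x i) → y ∈ L) →
        (1 / b * Real.log (coveringNum (polarBody L) (a • polarBody K)) ≤
          Real.log (coveringNum K L)) ∧
        Real.log (coveringNum K L) ≤
          b * Real.log (coveringNum (polarBody L) (a⁻¹ • polarBody K)) := by
  refine ⟨192, 43, by norm_num, by norm_num, ?_⟩
  intro n _ K L hK hL huK huL
  refine ⟨?_, Lattice.log_coveringNum_le hK huK hL huL⟩
  rw [one_div_mul_eq_div, div_le_iff₀' (by norm_num)]
  exact Lattice.log_coveringNum_polar_le hK huK hL huL
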